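import Vale.Agent.P340.Untyped.Syntax

/-!
# P340: continuation-passing images of skeletons, up to accumulated memory

`Comp d K U`: `U` is an image of `K`, where the source variables are below `d` and the constants
`e, w, q` of the translation are the variables `d, d + 1, d + 2`.
`BodyC d K k B`: `B` is the body of an image of `K` run with the continuation `k`.
-/

namespace Vale.Agent.P340

mutual
/-- Images of skeletons. -/
inductive Comp : ℕ → Sk → Sk → Prop where
  | mk {d : ℕ} {K B : Sk} : BodyC (d + 1) K.lift (.var 0) B → Comp d K (.lam B)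

/-- Bodies of images, with their continuation. -/
inductive BodyC : ℕ → Sk → Sk → Sk → Prop where
  | mem {d : ℕ} {K k B : Sk} (J : Sk) :
      BodyC d K k B → BodyC d K k (.app (.app (.var (d + 2)) B) J)
  | var {d n : ℕ} (k : Sk) : n < d → BodyC d (.var n) k (.app (.var n) k)
  | con {d : ℕ} (k : Sk) : BodyC d .con k (.app k .con)
  | lam {d : ℕ} {Kb U : Sk} (k J : Sk) : Comp (d + 2) Kb.lift U →
      BodyC d (.lam Kb) k
        (.app k (.lam (.lam (.app (.app (.var (d + 4)) (.app U (.var 0))) J))))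
  | tlam {d : ℕ} {Kb U : Sk} (k : Sk) : ¬ Sk.Occurs 0 Kb → Comp (d + 1) Kb U →
      BodyC d (.tlam Kb) k (.app k (.tlam U))
  | app {d : ℕ} {Kf Ka Uf Ua : Sk} (k : Sk) : Comp d Kf Uf → Comp d Ka Ua →
      BodyC d (.app Kf Ka) k (.app Uf (.lam (.app (.app (.var 0) Ua.lift) k.lift)))
  | tapp {d : ℕ} {Kf Uf : Sk} (k : Sk) : Comp d Kf Uf →
      BodyC d (.tapp Kf) k (.app Uf (.lam (.app (.tapp (.var 0)) k.lift)))
  | nodeH {d : ℕ} {Kd Ud : Sk} (k : Sk) : Comp (d + 1) Kd Ud →
      BodyC d (.node .con Kd) k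
        (.app k (.node .con (.app (.tapp (.var (d + 1))) Ud)))
  | nodeS {d : ℕ} {Kc Kd Uc Ud : Sk} (k : Sk) : Comp d Kc Uc → Comp (d + 1) Kd Ud →
      BodyC d (.node Kc Kd) k
        (.app k (.node (.app (.tapp (.var d)) Uc) (.app (.tapp (.var (d + 1))) Ud)))
end

/-- Every step of a skeleton is simulated by at least one step of each of its images. -/
def CompSimSpec : Prop :=
  ∀ (d : ℕ) (K K' U : Sk), Comp d K U → Sk.Red K K' →
    ∃ U', Relation.TransGen Sk.Red U U' ∧ Comp d K' U'

/-- Images may be renamed along maps that fix the constants. -/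
def CompRenameSpec : Prop :=
  ∀ (d d' : ℕ) (K U : Sk) (ξ : ℕ → ℕ), Comp d K U → (∀ n < d, ξ n < d') →
    (∀ j, ξ (d + j) = d' + j) → Comp d' (K.rename ξ) (U.rename ξ)

end Vale.Agent.P340
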