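import Vale.Agent.P340.Untyped.Basic
import Vale.Agent.P340.Untyped.Comp

/-!
# P340: steps of skeletons are simulated by their continuation-passing images
-/

namespace Vale.Agent.P340

open Relation

namespace Sk

theorem lift_subst_up (K : Sk) (σ : ℕ → Sk) : K.lift.subst (up σ) = (K.subst σ).lift := by
  simp only [lift, subst_rename, rename_subst, up]

theorem lift_rename_up (K : Sk) (ξ : ℕ → ℕ) :
    K.lift.rename (upRen ξ) = (K.rename ξ).lift := by
  simp only [lift, rename_rename, upRen]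

theorem lift_rename_pred (K : Sk) : K.lift.rename Nat.pred = K := by
  rw [lift, rename_rename, rename_eq_subst]
  exact subst_var K

theorem occurs_rename_rev (K : Sk) :
    ∀ {n : ℕ} (ξ : ℕ → ℕ), Occurs n (K.rename ξ) → ∃ m, Occurs m K ∧ ξ m = n := by
  induction K with
  | var m => intro n ξ h; exact ⟨m, rfl, h⟩
  | con => intro n ξ h; exact h.elim
  | lam b ih =>
    intro n ξ h
    obtain ⟨m, hm, he⟩ := ih (upRen ξ) h
    cases m with
    | zero => simp [upRen] at he
    | succ m => exact ⟨m, hm, Nat.succ.inj he⟩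
  | tlam b ih =>
    intro n ξ h
    obtain ⟨m, hm, he⟩ := ih (upRen ξ) h
    cases m with
    | zero => simp [upRen] at he
    | succ m => exact ⟨m, hm, Nat.succ.inj he⟩
  | app f a hf ha =>
    intro n ξ h
    rcases h with h | h
    · obtain ⟨m, hm, he⟩ := hf ξ h; exact ⟨m, Or.inl hm, he⟩
    · obtain ⟨m, hm, he⟩ := ha ξ h; exact ⟨m, Or.inr hm, he⟩
  | tapp f ih => intro n ξ h; exact ih ξ h
  | node a b ha hb =>
    intro n ξ h
    rcases h with h | h
    · obtain ⟨m, hm, he⟩ := ha ξ h; exact ⟨m, Or.inl hm, he⟩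
    · obtain ⟨m, hm, he⟩ := hb (upRen ξ) h
      cases m with
      | zero => simp [upRen] at he
      | succ m => exact ⟨m, Or.inr hm, Nat.succ.inj he⟩

theorem occurs_lift_rev {K : Sk} {n : ℕ} (h : Occurs n K.lift) :
    ∃ m, Occurs m K ∧ m + 1 = n := occurs_rename_rev K Nat.succ h

theorem occurs_up_rev {σ : ℕ → Sk} {n m : ℕ} (h : Occurs (n + 1) (up σ m)) :
    ∃ j, j + 1 = m ∧ Occurs n (σ j) := by
  cases m with
  | zero => simp [up, Occurs] at h
  | succ j =>
    obtain ⟨k, hk, he⟩ := occurs_lift_rev (K := σ j) h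
    cases Nat.succ.inj he
    exact ⟨j, rfl, hk⟩

theorem occurs_subst_rev (K : Sk) :
    ∀ {n : ℕ} (σ : ℕ → Sk), Occurs n (K.subst σ) → ∃ m, Occurs m K ∧ Occurs n (σ m) := by
  induction K with
  | var m => intro n σ h; exact ⟨m, rfl, h⟩
  | con => intro n σ h; exact h.elim
  | lam b ih =>
    intro n σ h
    obtain ⟨m, hm, he⟩ := ih (up σ) h
    obtain ⟨j, rfl, hj⟩ := occurs_up_rev he
    exact ⟨j, hm, hj⟩
  | tlam b ih =>
    intro n σ h
    obtain ⟨m, hm, he⟩ := ih (up σ) h
    obtain ⟨j, rfl, hj⟩ := occurs_up_rev he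
    exact ⟨j, hm, hj⟩
  | app f a hf ha =>
    intro n σ h
    rcases h with h | h
    · obtain ⟨m, hm, he⟩ := hf σ h; exact ⟨m, Or.inl hm, he⟩
    · obtain ⟨m, hm, he⟩ := ha σ h; exact ⟨m, Or.inr hm, he⟩
  | tapp f ih => intro n σ h; exact ih σ h
  | node a b ha hb =>
    intro n σ h
    rcases h with h | h
    · obtain ⟨m, hm, he⟩ := ha σ h; exact ⟨m, Or.inl hm, he⟩
    · obtain ⟨m, hm, he⟩ := hb (up σ) h
      obtain ⟨j, rfl, hj⟩ := occurs_up_rev he
      exact ⟨j, Or.inr hm, hj⟩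

theorem occurs_inst_rev {b a : Sk} {n : ℕ} (h : Occurs n (b.inst a)) :
    Occurs (n + 1) b ∨ Occurs n a := by
  obtain ⟨m, hm, he⟩ := occurs_subst_rev b (single a) h
  cases m with
  | zero => exact Or.inr he
  | succ j => exact Or.inl ((show j = n from he) ▸ hm)

/-- Steps create no occurrence. -/
theorem Red.occurs_rev {K K' : Sk} (h : Red K K') :
    ∀ {n : ℕ}, Occurs n K' → Occurs n K := by
  induction h with
  | beta b a => exact fun hn => occurs_inst_rev hn
  | tbeta b => exact fun hn => (occurs_inst_rev hn).elim id fun h => h.elim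
  | lam _ ih => exact fun hn => ih hn
  | tlam _ ih => exact fun hn => ih hn
  | appL a _ ih => exact fun hn => hn.imp_left ih
  | appR f _ ih => exact fun hn => hn.imp_right ih
  | tapp _ ih => exact fun hn => ih hn
  | nodeL b _ ih => exact fun hn => hn.imp_left ih
  | nodeR a _ ih => exact fun hn => hn.imp_right ih

theorem Reds.lam {b b' : Sk} (h : Reds b b') : Reds (.lam b) (.lam b') :=
  h.lift Sk.lam fun _ _ r => Red.lam r

theorem Reds.tlam {b b' : Sk} (h : Reds b b') : Reds (.tlam b) (.tlam b') :=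
  h.lift Sk.tlam fun _ _ r => Red.tlam r

theorem Reds.liftVar {b b' : Sk} (h : Reds b b') : Reds b.lift b'.lift :=
  h.lift Sk.lift fun _ _ r => r.rename _

end Sk

open Sk

/-! ## Renamings -/

mutual

theorem Comp.renameOn : ∀ {d K U}, Comp d K U → ∀ (d' : ℕ) (ξ : ℕ → ℕ) (τ : ℕ → Sk),
    (∀ n < d, Occurs n K → τ n = .var (ξ n) ∧ ξ n < d') →
    (∀ j, τ (d + j) = .var (d' + j)) → Comp d' (K.rename ξ) (U.subst τ)
  | d, K, _, .mk h, d', ξ, τ, hv, hc => by
    refine Comp.mk ?_
    rw [← lift_rename_up]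
    refine BodyC.renameOn h (d' + 1) (upRen ξ) (up τ) (fun n hn ho => ?_) fun j => ?_
    · obtain ⟨m, hm, rfl⟩ := occurs_lift_rev ho
      obtain ⟨he, hlt⟩ := hv m (by omega) hm
      exact ⟨by rw [up, he]; rfl, by simpa [upRen] using hlt⟩
    · rw [Nat.add_right_comm, up, hc, Nat.add_right_comm]; rfl

theorem BodyC.renameOn : ∀ {d K k B}, BodyC d K k B → ∀ (d' : ℕ) (ξ : ℕ → ℕ) (τ : ℕ → Sk),
    (∀ n < d, Occurs n K → τ n = .var (ξ n) ∧ ξ n < d') →
    (∀ j, τ (d + j) = .var (d' + j)) → BodyC d' (K.rename ξ) (k.subst τ) (B.subst τ)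
  | _, _, _, _, .mem J h, d', ξ, τ, hv, hc => by
    simp only [Sk.subst, hc]
    exact .mem _ (BodyC.renameOn h d' ξ τ hv hc)
  | _, _, _, _, .var (n := n) k hn, d', ξ, τ, hv, hc => by
    obtain ⟨he, hlt⟩ := hv n hn rfl
    simp only [Sk.subst, Sk.rename, he]
    exact .var _ hlt
  | _, _, _, _, .con k, d', ξ, τ, hv, hc => .con _
  | d, _, _, _, .lam (Kb := Kb) k J h, d', ξ, τ, hv, hc => by
    have hq : up (up τ) (d + 4) = .var (d' + 4) := by simp [up, hc 2, Sk.lift, Sk.rename]
    simp only [Sk.subst, Sk.rename, hq]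
    refine BodyC.lam _ _ ?_
    rw [← lift_rename_up]
    refine Comp.renameOn h (d' + 2) (upRen (upRen ξ)) (up (up τ)) (fun n hn ho => ?_) fun j => ?_
    · obtain ⟨m, hm, rfl⟩ := occurs_lift_rev ho
      cases m with
      | zero => exact ⟨rfl, by simp [upRen]⟩
      | succ m =>
        obtain ⟨he, hlt⟩ := hv m (by omega) hm
        exact ⟨by simp [up, he, Sk.lift, Sk.rename, upRen], by simp [upRen]; omega⟩
    · rw [show d + 2 + j = d + j + 1 + 1 by omega, show d' + 2 + j = d' + j + 1 + 1 by omega]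
      simp [up, hc, Sk.lift, Sk.rename]
  | d, _, _, _, .tlam (Kb := Kb) k h0 h, d', ξ, τ, hv, hc => by
    simp only [Sk.subst, Sk.rename]
    refine BodyC.tlam _ (fun ho => ?_) ?_
    · obtain ⟨m, hm, he⟩ := occurs_rename_rev Kb _ ho
      cases m with
      | zero => exact h0 hm
      | succ m => simp [upRen] at he
    refine Comp.renameOn h (d' + 1) (upRen ξ) (up τ) (fun n hn ho => ?_) fun j => ?_
    · cases n with
      | zero => exact absurd ho h0
      | succ m =>
        obtain ⟨he, hlt⟩ := hv m (by omega) ho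
        exact ⟨by simp [up, he, Sk.lift, Sk.rename, upRen], by simp [upRen]; omega⟩
    · rw [Nat.add_right_comm, up, hc, Nat.add_right_comm]; rfl
  | _, _, _, _, .app k hf ha, d', ξ, τ, hv, hc => by
    simp only [Sk.subst, Sk.rename, lift_subst_up]
    exact .app _ (Comp.renameOn hf d' ξ τ (fun n hn ho => hv n hn (Or.inl ho)) hc)
      (Comp.renameOn ha d' ξ τ (fun n hn ho => hv n hn (Or.inr ho)) hc)
  | _, _, _, _, .tapp k hf, d', ξ, τ, hv, hc => by
    simp only [Sk.subst, Sk.rename, lift_subst_up]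
    exact .tapp _ (Comp.renameOn hf d' ξ τ hv hc)
  | d, _, _, _, .nodeH k h, d', ξ, τ, hv, hc => by
    have he : up τ (d + 1) = .var (d' + 1) := congrArg Sk.lift (hc 0)
    simp only [Sk.subst, Sk.rename, he]
    refine BodyC.nodeH _ ?_
    refine Comp.renameOn h (d' + 1) (upRen ξ) (up τ) (fun n hn ho => ?_) fun j => ?_
    · cases n with
      | zero => exact ⟨rfl, by simp [upRen]⟩
      | succ m =>
        obtain ⟨he, hlt⟩ := hv m (by omega) (Or.inr ho)
        exact ⟨by simp [up, he, Sk.lift, Sk.rename, upRen], by simp [upRen]; omega⟩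
    · rw [Nat.add_right_comm, up, hc, Nat.add_right_comm]; rfl
  | d, _, _, _, .nodeS k hl h, d', ξ, τ, hv, hc => by
    have he : up τ (d + 1) = .var (d' + 1) := congrArg Sk.lift (hc 0)
    have he' : τ d = .var d' := hc 0
    simp only [Sk.subst, Sk.rename, he, he']
    refine BodyC.nodeS _ (Comp.renameOn hl d' ξ τ (fun n hn ho => hv n hn (Or.inl ho)) hc) ?_
    refine Comp.renameOn h (d' + 1) (upRen ξ) (up τ) (fun n hn ho => ?_) fun j => ?_
    · cases n with
      | zero => exact ⟨rfl, by simp [upRen]⟩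
      | succ m =>
        obtain ⟨he, hlt⟩ := hv m (by omega) (Or.inr ho)
        exact ⟨by simp [up, he, Sk.lift, Sk.rename, upRen], by simp [upRen]; omega⟩
    · rw [Nat.add_right_comm, up, hc, Nat.add_right_comm]; rfl

end

theorem compRename : CompRenameSpec := by
  intro d d' K U ξ h hlt hc
  rw [rename_eq_subst U]
  exact h.renameOn d' ξ (fun n => .var (ξ n)) (fun n hn _ => ⟨rfl, hlt n hn⟩)
    fun j => congrArg Sk.var (hc j)

theorem Comp.lift_one {d : ℕ} {K U : Sk} (h : Comp d K U) : Comp (d + 1) K.lift U.lift :=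
  compRename d (d + 1) K U Nat.succ h (fun n hn => by omega) fun j => by omega

/-- The continuation variable of an image may be instantiated. -/
theorem BodyC.inst_cont {d : ℕ} {K k B : Sk} (h : BodyC (d + 1) K.lift k B) (N : Sk) :
    BodyC d K (k.inst N) (B.inst N) := by
  have h' := h.renameOn d Nat.pred (single N) (fun n hn ho => ?_) fun j => ?_
  · rwa [lift_rename_pred] at h'
  · obtain ⟨m, hm, rfl⟩ := occurs_lift_rev ho
    exact ⟨rfl, by simp; omega⟩
  · rw [Nat.add_right_comm]; rfl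

theorem Comp.app_body {d : ℕ} {K U : Sk} (h : Comp d K U) (N : Sk) :
    ∃ B, Red (.app U N) B ∧ BodyC d K N B := by
  cases h with
  | mk hb => exact ⟨_, .beta _ _, hb.inst_cont N⟩

/-! ## Substitution -/

/-- A value of a substitution on sources and on images. -/
def Img (d : ℕ) (a b : Sk) : Prop :=
  (∃ m < d, a = .var m ∧ b = .var m) ∨ Comp d a b

theorem Img.lift {d : ℕ} {a b : Sk} (h : Img d a b) : Img (d + 1) a.lift b.lift := by
  rcases h with ⟨m, hm, rfl, rfl⟩ | h
  · exact Or.inl ⟨m + 1, by omega, rfl, rfl⟩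
  · exact Or.inr h.lift_one

theorem img_up {d d' : ℕ} {σ τ : ℕ → Sk} {K : Sk}
    (hv : ∀ n < d, Occurs (n + 1) K → Img d' (σ n) (τ n)) :
    ∀ n < d + 1, Occurs n K → Img (d' + 1) (up σ n) (up τ n)
  | 0, _, _ => Or.inl ⟨0, by omega, rfl, rfl⟩
  | n + 1, hn, ho => (hv n (by omega) ho).lift

theorem const_up {d d' : ℕ} {τ : ℕ → Sk} (hc : ∀ j, τ (d + j) = .var (d' + j)) (j : ℕ) :
    up τ (d + 1 + j) = .var (d' + 1 + j) := by
  rw [Nat.add_right_comm, up, hc, Nat.add_right_comm]; rfl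

mutual

theorem Comp.substOn : ∀ {d K U}, Comp d K U → ∀ (d' : ℕ) (σ τ : ℕ → Sk),
    (∀ n < d, Occurs n K → Img d' (σ n) (τ n)) →
    (∀ j, τ (d + j) = .var (d' + j)) →
      ∃ U', Reds (U.subst τ) U' ∧ Comp d' (K.subst σ) U'
  | d, K, _, .mk h, d', σ, τ, hv, hc => by
    obtain ⟨B', hr, hb⟩ := BodyC.substOn h (d' + 1) (up σ) (up τ)
      (img_up fun n hn ho => hv n hn (by
        obtain ⟨m, hm, he⟩ := occurs_lift_rev ho
        cases Nat.succ.inj he
        exact hm)) (const_up hc)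
    rw [lift_subst_up] at hb
    exact ⟨_, Reds.lam hr, .mk hb⟩

theorem BodyC.substOn : ∀ {d K k B}, BodyC d K k B → ∀ (d' : ℕ) (σ τ : ℕ → Sk),
    (∀ n < d, Occurs n K → Img d' (σ n) (τ n)) →
    (∀ j, τ (d + j) = .var (d' + j)) →
      ∃ B', Reds (B.subst τ) B' ∧ BodyC d' (K.subst σ) (k.subst τ) B'
  | _, _, _, _, .mem J h, d', σ, τ, hv, hc => by
    obtain ⟨B', hr, hb⟩ := BodyC.substOn h d' σ τ hv hc
    simp only [Sk.subst, hc]
    exact ⟨_, Reds.app (Reds.app .refl hr) .refl, .mem _ hb⟩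
  | _, _, _, _, .var (n := n) k hn, d', σ, τ, hv, hc => by
    rcases hv n hn rfl with ⟨m, hm, ha, hb⟩ | h
    · simp only [Sk.subst, ha, hb]
      exact ⟨_, .refl, .var _ hm⟩
    · obtain ⟨B', hr, hb⟩ := h.app_body (k.subst τ)
      exact ⟨B', .single hr, hb⟩
  | _, _, _, _, .con k, d', σ, τ, hv, hc => ⟨_, .refl, .con _⟩
  | d, _, _, _, .lam (Kb := Kb) k J h, d', σ, τ, hv, hc => by
    have hq : up (up τ) (d + 4) = .var (d' + 4) := const_up (const_up hc) 2
    obtain ⟨U', hr, hu⟩ := Comp.substOn h (d' + 2) (up (up σ)) (up (up τ))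
      (img_up fun n hn ho => img_up (K := Kb) (fun n hn ho => hv n hn ho) n hn (by
        obtain ⟨m, hm, he⟩ := occurs_lift_rev ho
        cases Nat.succ.inj he
        exact hm)) (const_up (const_up hc))
    rw [lift_subst_up] at hu
    simp only [Sk.subst, hq]
    exact ⟨_, Reds.app .refl (Reds.lam (Reds.lam (Reds.app (Reds.app .refl
      (Reds.app hr .refl)) .refl))), .lam _ _ hu⟩
  | d, _, _, _, .tlam (Kb := Kb) k h0 h, d', σ, τ, hv, hc => by
    obtain ⟨U', hr, hu⟩ := Comp.substOn h (d' + 1) (up σ) (up τ) (img_up hv) (const_up hc)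
    simp only [Sk.subst]
    refine ⟨_, Reds.app .refl (Reds.tlam hr), .tlam _ (fun ho => ?_) hu⟩
    obtain ⟨m, hm, he⟩ := occurs_subst_rev Kb _ ho
    cases m with
    | zero => exact h0 hm
    | succ m =>
      obtain ⟨i, _, hi⟩ := occurs_lift_rev he
      exact absurd hi (Nat.succ_ne_zero i)
  | _, _, _, _, .app k hf ha, d', σ, τ, hv, hc => by
    obtain ⟨Uf', hrf, huf⟩ :=
      Comp.substOn hf d' σ τ (fun n hn ho => hv n hn (Or.inl ho)) hc
    obtain ⟨Ua', hra, hua⟩ :=
      Comp.substOn ha d' σ τ (fun n hn ho => hv n hn (Or.inr ho)) hc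
    simp only [Sk.subst, lift_subst_up]
    exact ⟨_, Reds.app hrf (Reds.lam (Reds.app (Reds.app .refl hra.liftVar) .refl)),
      .app _ huf hua⟩
  | _, _, _, _, .tapp k hf, d', σ, τ, hv, hc => by
    obtain ⟨Uf', hrf, huf⟩ := Comp.substOn hf d' σ τ hv hc
    simp only [Sk.subst, lift_subst_up]
    exact ⟨_, Reds.app hrf .refl, .tapp _ huf⟩
  | d, _, _, _, .nodeH k h, d', σ, τ, hv, hc => by
    have he : up τ (d + 1) = .var (d' + 1) := const_up hc 0
    obtain ⟨U', hr, hu⟩ := Comp.substOn h (d' + 1) (up σ) (up τ)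
      (img_up fun n hn ho => hv n hn (Or.inr ho)) (const_up hc)
    simp only [Sk.subst, he]
    exact ⟨_, Reds.app .refl (Reds.node .refl (Reds.app .refl hr)), .nodeH _ hu⟩
  | d, _, _, _, .nodeS k hl h, d', σ, τ, hv, hc => by
    have he : up τ (d + 1) = .var (d' + 1) := const_up hc 0
    have he' : τ d = .var d' := hc 0
    obtain ⟨Ul', hrl, hul⟩ :=
      Comp.substOn hl d' σ τ (fun n hn ho => hv n hn (Or.inl ho)) hc
    obtain ⟨U', hr, hu⟩ := Comp.substOn h (d' + 1) (up σ) (up τ)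
      (img_up fun n hn ho => hv n hn (Or.inr ho)) (const_up hc)
    simp only [Sk.subst, he, he']
    exact ⟨_, Reds.app .refl (Reds.node (Reds.app .refl hrl) (Reds.app .refl hr)),
      .nodeS _ hul hu⟩

end

/-! ## The two head steps -/

theorem RedP.mem {d : ℕ} {B B' : Sk} (h : RedP B B') (J : Sk) :
    RedP (.app (.app (.var (d + 2)) B) J) (.app (.app (.var (d + 2)) B') J) :=
  h.lift (fun x => Sk.app (.app (.var (d + 2)) x) J) fun _ _ r => .appL _ (.appR _ r)

theorem cont_beta (A k L : Sk) :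
    Red (.app (.lam (.app (.app (.var 0) A.lift) k.lift)) L) (.app (.app L A) k) := by
  have h : (Sk.app (.app (.var 0) A.lift) k.lift).inst L
      = .app (.app L (A.lift.inst L)) (k.lift.inst L) := rfl
  rw [lift_inst, lift_inst] at h
  exact h ▸ Red.beta _ _

theorem cont_tbeta (k L : Sk) :
    Red (.app (.lam (.app (.tapp (.var 0)) k.lift)) L) (.app (.tapp L) k) := by
  have h : (Sk.app (.tapp (.var 0)) k.lift).inst L = .app (.tapp L) (k.lift.inst L) := rfl
  rw [lift_inst] at h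
  exact h ▸ Red.beta _ _

theorem beta_core : ∀ {d K m B}, BodyC d K m B → ∀ {Kb Ka Ua k : Sk}, K = .lam Kb →
    m = .lam (.app (.app (.var 0) Ua.lift) k.lift) → Comp d Ka Ua →
      ∃ B', RedP B B' ∧ BodyC d (Kb.inst Ka) k B'
  | _, _, _, _, .mem J h, _, _, _, _, hK, hm, ha => by
    obtain ⟨B', hr, hb⟩ := beta_core h hK hm ha
    exact ⟨_, RedP.mem hr J, .mem J hb⟩
  | _, _, _, _, .var _ _, _, _, _, _, hK, _, _ => by cases hK
  | _, _, _, _, .con _, _, _, _, _, hK, _, _ => by cases hK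
  | _, _, _, _, .tlam _ _ _, _, _, _, _, hK, _, _ => by cases hK
  | _, _, _, _, .app _ _ _, _, _, _, _, hK, _, _ => by cases hK
  | _, _, _, _, .tapp _ _, _, _, _, _, hK, _, _ => by cases hK
  | _, _, _, _, .nodeH _ _, _, _, _, _, hK, _, _ => by cases hK
  | _, _, _, _, .nodeS _ _ _, _, _, _, _, hK, _, _ => by cases hK
  | d, _, _, _, .lam (Kb := Kb) (U := U) m J h, Kb', Ka, Ua, k, hK, hm, ha => by
    cases hK
    subst hm
    set body := Sk.app (.app (.var (d + 4)) (.app U (.var 0))) J with hbody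
    set L := Sk.lam (.lam body)
    set τ := Sk.cons k (single Ua)
    obtain ⟨U', hru, hu⟩ := Comp.substOn h d (Sk.cons .con (single Ka)) τ
      (fun n hn ho => by
        obtain ⟨i, -, rfl⟩ := occurs_lift_rev ho
        cases i with
        | zero => exact Or.inr ha
        | succ i => exact Or.inl ⟨i, by omega, rfl, rfl⟩)
      fun j => by rw [show d + 2 + j = d + j + 1 + 1 by omega]; rfl
    have hK' : Kb.lift.subst (Sk.cons .con (single Ka)) = Kb.inst Ka := by
      rw [Sk.lift, subst_rename]; rfl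
    rw [hK'] at hu
    obtain ⟨B', hr', hb⟩ := hu.app_body k
    refine ⟨.app (.app (.var (d + 2)) B') (J.subst τ), ?_, .mem _ hb⟩
    have s2 : Red (.app (.app L Ua) k) (.app (.lam (body.subst (Sk.up (single Ua)))) k) :=
      .appL _ (.beta _ _)
    have s3 : Red (.app (.lam (body.subst (Sk.up (single Ua)))) k) (body.subst τ) := by
      have h3 := Red.beta (body.subst (Sk.up (single Ua))) k
      rwa [subst_up_inst] at h3
    have h4 : body.subst τ
        = .app (.app (.var (d + 2)) (.app (U.subst τ) k)) (J.subst τ) := rfl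
    have s5 : RedP (body.subst τ) (.app (.app (.var (d + 2)) B') (J.subst τ)) := by
      rw [h4]
      exact RedP.mem (TransGen.tail' (Reds.app hru .refl) hr') _
    exact (((TransGen.single (cont_beta Ua k L)).tail s2).tail s3).trans s5

theorem tbeta_core : ∀ {d K m B}, BodyC d K m B → ∀ {Kb k : Sk}, K = .tlam Kb →
    m = .lam (.app (.tapp (.var 0)) k.lift) →
      ∃ B', RedP B B' ∧ BodyC d (Kb.inst .con) k B'
  | _, _, _, _, .mem J h, _, _, hK, hm => by
    obtain ⟨B', hr, hb⟩ := tbeta_core h hK hm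
    exact ⟨_, RedP.mem hr J, .mem J hb⟩
  | _, _, _, _, .var _ _, _, _, hK, _ => by cases hK
  | _, _, _, _, .con _, _, _, hK, _ => by cases hK
  | _, _, _, _, .lam _ _ _, _, _, hK, _ => by cases hK
  | _, _, _, _, .app _ _ _, _, _, hK, _ => by cases hK
  | _, _, _, _, .tapp _ _, _, _, hK, _ => by cases hK
  | _, _, _, _, .nodeH _ _, _, _, hK, _ => by cases hK
  | _, _, _, _, .nodeS _ _ _, _, _, hK, _ => by cases hK
  | d, _, _, _, .tlam (Kb := Kb) (U := U) m h0 h, Kb', k, hK, hm => by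
    cases hK
    subst hm
    obtain ⟨U', hru, hu⟩ := Comp.substOn h d (single .con) (single .con)
      (fun n hn ho => by
        cases n with
        | zero => exact absurd ho h0
        | succ i => exact Or.inl ⟨i, by omega, rfl, rfl⟩)
      fun j => by rw [Nat.add_right_comm]; rfl
    obtain ⟨B', hr', hb⟩ := hu.app_body k
    refine ⟨B', ?_, hb⟩
    have s2 : Red (.app (.tapp (.tlam U)) k) (.app (U.inst .con) k) := .appL _ (.tbeta _)
    exact ((TransGen.single (cont_tbeta k _)).tail s2).trans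
      (TransGen.tail' (Reds.app hru .refl) hr')

/-! ## Simulation -/

mutual

theorem Comp.sim : ∀ {d K U}, Comp d K U → ∀ {K' : Sk}, Red K K' →
    ∃ U', RedP U U' ∧ Comp d K' U'
  | _, _, _, .mk h, _, r => by
    obtain ⟨B', hr, hb⟩ := BodyC.sim h (r.rename Nat.succ)
    exact ⟨_, hr.lift Sk.lam (fun _ _ r => Red.lam r), .mk hb⟩

theorem BodyC.sim : ∀ {d K k B}, BodyC d K k B → ∀ {K' : Sk}, Red K K' →
    ∃ B', RedP B B' ∧ BodyC d K' k B'
  | _, _, _, _, .mem J h, _, r => by
    obtain ⟨B', hr, hb⟩ := BodyC.sim h r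
    exact ⟨_, RedP.mem hr J, .mem J hb⟩
  | _, _, _, _, .var _ _, _, r => by cases r
  | _, _, _, _, .con _, _, r => by cases r
  | _, _, _, _, .lam k J h, _, r => by
    cases r with
    | lam r =>
      obtain ⟨U', hr, hu⟩ := Comp.sim h (r.rename Nat.succ)
      exact ⟨_, hr.lift (fun x => Sk.app k (.lam (.lam (.app (.app _ (.app x (.var 0))) J))))
        (fun _ _ r => Red.appR _ (.lam (.lam (.appL _ (.appR _ (.appL _ r)))))), .lam k J hu⟩
  | _, _, _, _, .tlam k h0 h, _, r => by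
    cases r with
    | tlam r =>
      obtain ⟨U', hr, hu⟩ := Comp.sim h r
      exact ⟨_, hr.lift (fun x => Sk.app k (.tlam x)) (fun _ _ r => Red.appR _ (.tlam r)),
        .tlam k (fun ho => h0 (r.occurs_rev ho)) hu⟩
  | _, _, _, _, .app k hf ha, _, r => by
    cases r with
    | beta b a =>
      cases hf with
      | mk hb =>
        obtain ⟨B', h1, h2⟩ :=
          beta_core (k := k) (hb.inst_cont _) rfl rfl ha
        exact ⟨B', TransGen.head (Red.beta _ _) h1, h2⟩
    | appL _ r =>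
      obtain ⟨U', hr, hu⟩ := Comp.sim hf r
      exact ⟨_, hr.lift (fun x => Sk.app x _) (fun _ _ r => Red.appL _ r), .app k hu ha⟩
    | appR _ r =>
      obtain ⟨U', hr, hu⟩ := Comp.sim ha r
      exact ⟨_, hr.lift (fun x => Sk.app _ (.lam (.app (.app (.var 0) x.lift) k.lift)))
        (fun _ _ r => Red.appR _ (.lam (.appL _ (.appR _ (r.rename _))))), .app k hf hu⟩
  | _, _, _, _, .tapp k hf, _, r => by
    cases r with
    | tbeta b =>
      cases hf with
      | mk hb =>
        obtain ⟨B', h1, h2⟩ := tbeta_core (k := k) (hb.inst_cont _) rfl rfl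
        exact ⟨B', TransGen.head (Red.beta _ _) h1, h2⟩
    | tapp r =>
      obtain ⟨U', hr, hu⟩ := Comp.sim hf r
      exact ⟨_, hr.lift (fun x => Sk.app x _) (fun _ _ r => Red.appL _ r), .tapp k hu⟩
  | d, _, _, _, .nodeH k h, _, r => by
    cases r with
    | nodeL _ r => cases r
    | nodeR _ r =>
      obtain ⟨U', hr, hu⟩ := Comp.sim h r
      exact ⟨_, hr.lift (fun x => Sk.app k (.node .con (.app (.tapp (.var (d + 1))) x)))
        (fun _ _ r => Red.appR _ (.nodeR _ (.appR _ r))), .nodeH k hu⟩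
  | d, _, _, _, .nodeS (Uc := Uc) (Ud := Ud) k hl h, _, r => by
    cases r with
    | nodeL _ r =>
      obtain ⟨U', hr, hu⟩ := Comp.sim hl r
      exact ⟨_, hr.lift (fun x => Sk.app k (.node (.app (.tapp (.var d)) x)
          (.app (.tapp (.var (d + 1))) Ud)))
        (fun _ _ r => Red.appR _ (.nodeL _ (.appR _ r))), .nodeS k hu h⟩
    | nodeR _ r =>
      obtain ⟨U', hr, hu⟩ := Comp.sim h r
      exact ⟨_, hr.lift (fun x => Sk.app k (.node (.app (.tapp (.var d)) Uc)
          (.app (.tapp (.var (d + 1))) x)))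
        (fun _ _ r => Red.appR _ (.nodeR _ (.appR _ r))), .nodeS k hl hu⟩

end

theorem compSim : CompSimSpec := fun _ _ _ _ h r => h.sim r

end Vale.Agent.P340
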