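import Vale.Agent.P340.Untyped.Basic

/-!
# P340: conservation for relevant skeletons

Standard reduction (Kashima) reaches the normal form by weak head steps followed by reduction of
the arguments, and a weak head step of a relevant skeleton reflects strong normalization.
-/

namespace Vale.Agent.P340

namespace Sk

open Relation

/-- Weak head step. -/
inductive Hap : Sk → Sk → Prop where
  | beta (b a : Sk) : Hap (app (lam b) a) (b.inst a)
  | tbeta (b : Sk) : Hap (tapp (tlam b)) (b.inst con)
  | appL {f f' : Sk} (a : Sk) : Hap f f' → Hap (app f a) (app f' a)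
  | tapp {f f' : Sk} : Hap f f' → Hap (tapp f) (tapp f')

/-- Many weak head steps. -/
abbrev Haps : Sk → Sk → Prop := ReflTransGen Hap

theorem Hap.red {K K' : Sk} (h : Hap K K') : Red K K' := by
  induction h with
  | beta b a => exact .beta b a
  | tbeta b => exact .tbeta b
  | appL a _ ih => exact .appL a ih
  | tapp _ ih => exact .tapp ih

theorem Hap.subst {K K' : Sk} (h : Hap K K') (σ : ℕ → Sk) : Hap (K.subst σ) (K'.subst σ) := by
  induction h with
  | beta b a => rw [inst_subst]; exact .beta _ _
  | tbeta b => rw [inst_subst]; exact .tbeta _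
  | appL a _ ih => exact .appL _ ih
  | tapp _ ih => exact .tapp ih

theorem Haps.subst {K K' : Sk} (h : Haps K K') (σ : ℕ → Sk) :
    Haps (K.subst σ) (K'.subst σ) :=
  h.lift (fun x => x.subst σ) fun _ _ r => r.subst σ

theorem Haps.rename {K K' : Sk} (h : Haps K K') (ξ : ℕ → ℕ) :
    Haps (K.rename ξ) (K'.rename ξ) := by
  rw [rename_eq_subst, rename_eq_subst]; exact h.subst _

/-- Standard reduction. -/
inductive Std : Sk → Sk → Prop where
  | var {M : Sk} {n : ℕ} : Haps M (var n) → Std M (var n)
  | con {M : Sk} : Haps M con → Std M con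
  | lam {M A A' : Sk} : Haps M (lam A) → Std A A' → Std M (lam A')
  | tlam {M A A' : Sk} : Haps M (tlam A) → Std A A' → Std M (tlam A')
  | app {M A A' B B' : Sk} : Haps M (app A B) → Std A A' → Std B B' → Std M (app A' B')
  | tapp {M A A' : Sk} : Haps M (tapp A) → Std A A' → Std M (tapp A')
  | node {M A A' B B' : Sk} : Haps M (node A B) → Std A A' → Std B B' → Std M (node A' B')

theorem Std.refl (M : Sk) : Std M M := by
  induction M with
  | var n => exact .var .refl
  | con => exact .con .refl
  | lam b ih => exact .lam .refl ih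
  | tlam b ih => exact .tlam .refl ih
  | app f a hf ha => exact .app .refl hf ha
  | tapp f ih => exact .tapp .refl ih
  | node a b ha hb => exact .node .refl ha hb

theorem Std.prepend {M M' N : Sk} (h : Haps M' M) (s : Std M N) : Std M' N := by
  cases s with
  | var g => exact .var (h.trans g)
  | con g => exact .con (h.trans g)
  | lam g s => exact .lam (h.trans g) s
  | tlam g s => exact .tlam (h.trans g) s
  | app g s t => exact .app (h.trans g) s t
  | tapp g s => exact .tapp (h.trans g) s
  | node g s t => exact .node (h.trans g) s t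

theorem Std.rename {M N : Sk} (s : Std M N) :
    ∀ ξ : ℕ → ℕ, Std (M.rename ξ) (N.rename ξ) := by
  induction s with
  | var g => exact fun ξ => .var (g.rename ξ)
  | con g => exact fun ξ => .con (g.rename ξ)
  | lam g _ ih => exact fun ξ => .lam (g.rename ξ) (ih _)
  | tlam g _ ih => exact fun ξ => .tlam (g.rename ξ) (ih _)
  | app g _ _ ih jh => exact fun ξ => .app (g.rename ξ) (ih ξ) (jh ξ)
  | tapp g _ ih => exact fun ξ => .tapp (g.rename ξ) (ih ξ)
  | node g _ _ ih jh => exact fun ξ => .node (g.rename ξ) (ih ξ) (jh _)

theorem Std.up {σ τ : ℕ → Sk} (h : ∀ n, Std (σ n) (τ n)) :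
    ∀ n, Std (Sk.up σ n) (Sk.up τ n)
  | 0 => Std.refl _
  | n + 1 => (h n).rename _

theorem Std.subst {M N : Sk} (s : Std M N) :
    ∀ {σ τ : ℕ → Sk}, (∀ n, Std (σ n) (τ n)) → Std (M.subst σ) (N.subst τ) := by
  induction s with
  | @var M n g => exact fun {σ τ} h => (h n).prepend (g.subst σ)
  | con g => exact fun {σ τ} _ => .con (g.subst σ)
  | lam g _ ih => exact fun {σ τ} h => .lam (g.subst σ) (ih (Std.up h))
  | tlam g _ ih => exact fun {σ τ} h => .tlam (g.subst σ) (ih (Std.up h))
  | app g _ _ ih jh => exact fun {σ τ} h => .app (g.subst σ) (ih h) (jh h)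
  | tapp g _ ih => exact fun {σ τ} h => .tapp (g.subst σ) (ih h)
  | node g _ _ ih jh => exact fun {σ τ} h => .node (g.subst σ) (ih h) (jh (Std.up h))

theorem Std.step {N N' : Sk} (r : Red N N') : ∀ {M : Sk}, Std M N → Std M N' := by
  induction r with
  | beta b a =>
    intro M s
    cases s with
    | @app _ A _ B _ g s t =>
      cases s with
      | @lam _ A0 _ k s =>
        refine (Std.subst s (σ := single B) (τ := single a) ?_).prepend
          ((g.trans (k.lift (fun x => Sk.app x B) fun _ _ q => Hap.appL B q)).tail (.beta A0 B))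
        intro n; cases n
        · exact t
        · exact Std.refl _
  | tbeta b =>
    intro M s
    cases s with
    | @tapp _ A _ g s =>
      cases s with
      | @tlam _ A0 _ k s =>
        exact (Std.subst s (σ := single Sk.con) (τ := single Sk.con) fun n => Std.refl _).prepend
          ((g.trans (k.lift Sk.tapp fun _ _ q => Hap.tapp q)).tail (.tbeta A0))
  | lam _ ih => intro M s; cases s with | lam g s => exact .lam g (ih s)
  | tlam _ ih => intro M s; cases s with | tlam g s => exact .tlam g (ih s)
  | appL a _ ih => intro M s; cases s with | app g s t => exact .app g (ih s) t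
  | appR f _ ih => intro M s; cases s with | app g s t => exact .app g s (ih t)
  | tapp _ ih => intro M s; cases s with | tapp g s => exact .tapp g (ih s)
  | nodeL b _ ih => intro M s; cases s with | node g s t => exact .node g (ih s) t
  | nodeR a _ ih => intro M s; cases s with | node g s t => exact .node g s (ih t)

theorem Std.of_reds {M N : Sk} (h : Reds M N) : Std M N := by
  induction h with
  | refl => exact Std.refl M
  | tail _ r ih => exact ih.step r

/-- A weak head step commutes with any other step, and loses nothing. -/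
theorem hap_diamond {M M' : Sk} (h : Hap M M') :
    M.Relevant → ∀ {M'' : Sk}, Red M M'' → M'' = M' ∨ ∃ M3, Hap M'' M3 ∧ RedP M' M3 := by
  induction h with
  | beta b a =>
    intro hr M'' r
    cases r with
    | beta => exact .inl rfl
    | appL _ r =>
      cases r with
      | @lam _ b' r => exact .inr ⟨_, .beta b' a, TransGen.single (r.subst _)⟩
    | @appR _ _ a' r =>
      refine .inr ⟨_, .beta b a', RedP.substR b 0 hr.1.1 (fun n => ?_) (TransGen.single r)⟩
      cases n
      · exact ReflTransGen.single r
      · exact .refl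
  | tbeta b =>
    intro _ M'' r
    cases r with
    | tbeta => exact .inl rfl
    | tapp r =>
      cases r with
      | @tlam _ b' r => exact .inr ⟨_, .tbeta b', TransGen.single (r.subst _)⟩
  | @appL f f' a h ih =>
    intro hr M'' r
    cases r with
    | beta b a => exact nomatch h
    | @appL _ f'' _ r =>
      rcases ih hr.1 r with e | ⟨M3, h3, p⟩
      · exact .inl (by rw [e])
      · exact .inr ⟨_, .appL a h3, p.lift (fun x => Sk.app x a) fun _ _ q => Red.appL a q⟩
    | @appR _ _ a' r => exact .inr ⟨_, .appL a' h, TransGen.single (Red.appR f' r)⟩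
  | @tapp f f' h ih =>
    intro hr M'' r
    cases r with
    | tbeta b => exact nomatch h
    | @tapp _ f'' r =>
      rcases ih hr r with e | ⟨M3, h3, p⟩
      · exact .inl (by rw [e])
      · exact .inr ⟨_, .tapp h3, p.lift Sk.tapp fun _ _ q => Red.tapp q⟩

/-- A weak head step of a relevant skeleton reflects strong normalization. -/
theorem sn_of_hap {M' : Sk} (hs : SN M') : ∀ {M : Sk}, M.Relevant → Hap M M' → SN M := by
  have hs' : Acc (TransGen fun x y => Red y x) M' := hs.transGen
  induction hs' with
  | intro M' hacc ih =>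
    intro M hr h
    refine SN.intro fun M'' r => ?_
    rcases hap_diamond h hr r with e | ⟨M3, h3, p⟩
    · exact e ▸ hs
    · exact ih M3 (transGen_swap.2 p) (hs.steps p.to_reflTransGen) (r.relevant hr) h3

theorem sn_of_haps {M H : Sk} (h : Haps M H) (hr : M.Relevant) (hs : SN H) : SN M := by
  induction h using ReflTransGen.head_induction_on with
  | refl => exact hs
  | head r _ ih => exact sn_of_hap (ih (r.red.relevant hr)) hr r

theorem Haps.relevant {M H : Sk} (h : Haps M H) (hr : M.Relevant) : H.Relevant :=
  Reds.relevant (h.lift (fun x => x) fun _ _ q => Hap.red q) hr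

/-- No redex can appear at the head. -/
def Stuck : Sk → Prop
  | var _ => True
  | con => True
  | node _ _ => True
  | app f _ => Stuck f ∨ ∃ g, f = tlam g
  | tapp f => Stuck f ∨ ∃ g, f = lam g
  | lam _ => False
  | tlam _ => False

theorem Stuck.step {K K' : Sk} (r : Red K K') : Stuck K → Stuck K' := by
  induction r with
  | beta b a => rintro (h | ⟨g, hg⟩); exacts [h.elim, nomatch hg]
  | tbeta b => rintro (h | ⟨g, hg⟩); exacts [h.elim, nomatch hg]
  | lam => exact id
  | tlam => exact id
  | appL a r ih =>
    rintro (h | ⟨g, rfl⟩)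
    · exact .inl (ih h)
    · cases r with | tlam r => exact .inr ⟨_, rfl⟩
  | appR f r ih => exact id
  | tapp r ih =>
    rintro (h | ⟨g, rfl⟩)
    · exact .inl (ih h)
    · cases r with | lam r => exact .inr ⟨_, rfl⟩
  | nodeL => exact id
  | nodeR => exact id

theorem sn_lam {b : Sk} (h : SN b) : SN (lam b) := by
  induction h with
  | intro b _ ih => exact SN.intro fun K' r => by cases r with | lam r => exact ih _ r

theorem sn_tlam {b : Sk} (h : SN b) : SN (tlam b) := by
  induction h with
  | intro b _ ih => exact SN.intro fun K' r => by cases r with | tlam r => exact ih _ r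

theorem sn_tapp {f : Sk} (h : SN f) : Stuck (tapp f) → SN (tapp f) := by
  induction h with
  | intro f _ ih =>
    intro st
    refine SN.intro fun K' r => ?_
    cases r with
    | tbeta b => rcases st with s | ⟨g, hg⟩; exacts [s.elim, nomatch hg]
    | tapp r => exact ih _ r (st.step (.tapp r))

theorem sn_app {f : Sk} (hf : SN f) : ∀ {a : Sk}, SN a → Stuck (app f a) → SN (app f a) := by
  induction hf with
  | intro f _ ihf =>
    intro a ha
    induction ha with
    | intro a ha iha =>
      intro st
      refine SN.intro fun K' r => ?_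
      cases r with
      | beta b a => rcases st with s | ⟨g, hg⟩; exacts [s.elim, nomatch hg]
      | appL _ r => exact ihf _ r (Acc.intro a ha) (st.step (.appL a r))
      | appR _ r => exact iha _ r (st.step (.appR f r))

/-- What the weak head normal form looks like, given the normal form. -/
def HeadLike : Sk → Sk → Prop
  | lam _, H => ∃ g, H = lam g
  | tlam _, H => ∃ g, H = tlam g
  | _, H => Stuck H

theorem std_normal {M N : Sk} (s : Std M N) :
    M.Relevant → N.Normal → ∃ H, Haps M H ∧ SN H ∧ HeadLike N H := by
  induction s with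
  | @var M n g => exact fun _ _ => ⟨_, g, SN.intro (fun _ r => nomatch r), trivial⟩
  | @con M g => exact fun _ _ => ⟨_, g, SN.intro (fun _ r => nomatch r), trivial⟩
  | @lam M A A' g _ ih =>
    intro hr hn
    have hA : A.Relevant := (g.relevant hr).2
    obtain ⟨H, hH, hs, -⟩ := ih hA fun K r => hn _ (.lam r)
    exact ⟨_, g, sn_lam (sn_of_haps hH hA hs), A, rfl⟩
  | @tlam M A A' g _ ih =>
    intro hr hn
    have hA : A.Relevant := g.relevant hr
    obtain ⟨H, hH, hs, -⟩ := ih hA fun K r => hn _ (.tlam r)
    exact ⟨_, g, sn_tlam (sn_of_haps hH hA hs), A, rfl⟩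
  | @app M A A' B B' g _ _ ih jh =>
    intro hr hn
    have hAB := g.relevant hr
    obtain ⟨H, hH, hs, hk⟩ := ih hAB.1 fun K r => hn _ (.appL _ r)
    obtain ⟨J, hJ, ht, -⟩ := jh hAB.2 fun K r => hn _ (.appR _ r)
    have st : Stuck (Sk.app H B) := by
      cases A' with
      | lam b => exact absurd (Red.beta b B') (hn _)
      | tlam b => obtain ⟨c, rfl⟩ := hk; exact .inr ⟨c, rfl⟩
      | _ => exact .inl hk
    exact ⟨_, g.trans (hH.lift (fun x => Sk.app x B) fun _ _ q => Hap.appL B q),
      sn_app hs (sn_of_haps hJ hAB.2 ht) st, st⟩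
  | @tapp M A A' g _ ih =>
    intro hr hn
    have hA : A.Relevant := g.relevant hr
    obtain ⟨H, hH, hs, hk⟩ := ih hA fun K r => hn _ (.tapp r)
    have st : Stuck (Sk.tapp H) := by
      cases A' with
      | lam b => obtain ⟨c, rfl⟩ := hk; exact .inr ⟨c, rfl⟩
      | tlam b => exact absurd (Red.tbeta b) (hn _)
      | _ => exact .inl hk
    exact ⟨_, g.trans (hH.lift Sk.tapp fun _ _ q => Hap.tapp q), sn_tapp hs st, st⟩
  | @node M A A' B B' g _ _ ih jh =>
    intro hr hn
    have hAB := g.relevant hr
    obtain ⟨H, hH, hs, -⟩ := ih hAB.1 fun K r => hn _ (.nodeL _ r)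
    obtain ⟨J, hJ, ht, -⟩ := jh hAB.2 fun K r => hn _ (.nodeR _ r)
    exact ⟨_, g, sn_node (sn_of_haps hH hAB.1 hs) (sn_of_haps hJ hAB.2 ht), trivial⟩

end Sk

/-- A relevant skeleton with a normal form is strongly normalizing. -/
theorem conservation : ConservationSpec := fun _ _ hr h hn => by
  obtain ⟨H, hH, hs, -⟩ := Sk.std_normal (Sk.Std.of_reds h) hr hn
  exact Sk.sn_of_haps hH hr hs

end Vale.Agent.P340
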