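import Vale.Agent.P340.Untyped.Basic

/-!
# P340: shape-typed skeletons are strongly normalizing
-/

namespace Vale.Agent.P340

namespace Sk

open Relation

/-- Neutral: not an abstraction. -/
def Neutral : Sk → Prop
  | lam _ => False
  | tlam _ => False
  | _ => True

/-- Reducibility. -/
def RC : Shape → Sk → Prop
  | .atom, K => SN K
  | .arr σ τ, K => ∀ a, RC σ a → RC τ (app K a)
  | .all τ, K => RC τ (tapp K)

/-- The three properties of reducibility candidates. -/
def IsCand (P : Sk → Prop) : Prop :=
  (∀ K, P K → SN K) ∧ (∀ K K', P K → Red K K' → P K') ∧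
    ∀ K, Neutral K → (∀ K', Red K K' → P K') → P K

theorem rc_cand : ∀ σ : Shape, IsCand (RC σ) := by
  intro σ
  induction σ with
  | atom => exact ⟨fun _ h => h, fun _ _ h r => h.step r, fun _ _ h => SN.intro h⟩
  | arr σ τ ihσ ihτ =>
    have hv : RC σ (var 0) := ihσ.2.2 _ trivial fun K' r => nomatch r
    refine ⟨fun K h => SN.of_map (f := fun x => app x (var 0)) (fun _ _ r => .appL _ r)
      (ihτ.1 _ (h _ hv)), fun K K' h r a ha => ihτ.2.1 _ _ (h a ha) (.appL a r),
      fun K hn h a ha => ?_⟩
    have hsn : SN a := ihσ.1 a ha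
    induction hsn with
    | intro a _ ih =>
      refine ihτ.2.2 _ trivial fun K' r => ?_
      cases r with
      | beta b a => exact hn.elim
      | appL _ r => exact h _ r a ha
      | appR _ r => exact ih _ r (ihσ.2.1 _ _ ha r)
  | all τ ihτ =>
    refine ⟨fun K h => SN.of_map (f := Sk.tapp) (fun _ _ r => .tapp r) (ihτ.1 _ h),
      fun K K' h r => ihτ.2.1 _ _ h (.tapp r), fun K hn h => ?_⟩
    refine ihτ.2.2 _ trivial fun K' r => ?_
    cases r with
    | tbeta b => exact hn.elim
    | tapp r => exact h _ r

theorem rc_var (σ : Shape) (n : ℕ) : RC σ (var n) :=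
  (rc_cand σ).2.2 _ trivial fun _ r => nomatch r

theorem sn_con : SN con := SN.intro fun _ r => nomatch r

theorem rc_beta {σ τ : Shape} {b : Sk} (hb : SN b) :
    (∀ a, RC σ a → RC τ (b.inst a)) → ∀ {a : Sk}, RC σ a → RC τ (app (lam b) a) := by
  induction hb with
  | intro b _ ihb =>
    intro h a ha
    have hsn : SN a := (rc_cand σ).1 a ha
    induction hsn with
    | intro a _ iha =>
      refine (rc_cand τ).2.2 _ trivial fun K' r => ?_
      cases r with
      | beta => exact h a ha
      | appL _ r =>
        cases r with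
        | lam r => exact ihb _ r (fun c hc => (rc_cand τ).2.1 _ _ (h c hc) (r.subst _)) ha
      | appR _ r => exact iha _ r ((rc_cand σ).2.1 _ _ ha r)

theorem rc_tbeta {τ : Shape} {b : Sk} (hb : SN b) :
    RC τ (b.inst con) → RC τ (tapp (tlam b)) := by
  induction hb with
  | intro b _ ihb =>
    intro h
    refine (rc_cand τ).2.2 _ trivial fun K' r => ?_
    cases r with
    | tbeta => exact h
    | tapp r =>
      cases r with
      | tlam r => exact ihb _ r ((rc_cand τ).2.1 _ _ h (r.subst _))

theorem rc_fundamental {Γ : List Shape} {K : Sk} {τ : Shape} (h : ShapeTyped Γ K τ) :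
    ∀ σ : ℕ → Sk, (∀ n ρ, Γ[n]? = some ρ → RC ρ (σ n)) → RC τ (K.subst σ) := by
  induction h with
  | var hn => exact fun σ hσ => hσ _ _ hn
  | con => exact fun _ _ => sn_con
  | @lam Γ b ρ τ _ ih =>
    intro σ hσ a ha
    have key : ∀ c, RC ρ c → RC τ ((b.subst (up σ)).inst c) := by
      intro c hc
      rw [subst_up_inst]
      refine ih _ fun n ρ' hn => ?_
      cases n with
      | zero => simp only [List.getElem?_cons_zero, Option.some.injEq] at hn; subst hn; exact hc
      | succ n => exact hσ n ρ' (by simpa using hn)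
    have hsn : SN (b.subst (up σ)) :=
      SN.of_subst (σ := single (var 0)) ((rc_cand τ).1 _ (key _ (rc_var ρ 0)))
    exact rc_beta hsn key ha
  | @tlam Γ b τ _ ih =>
    intro σ hσ
    have key : RC τ ((b.subst (up σ)).inst con) := by
      rw [subst_up_inst]
      refine ih _ fun n ρ' hn => ?_
      cases n with
      | zero =>
        simp only [List.getElem?_cons_zero, Option.some.injEq] at hn
        subst hn
        exact sn_con
      | succ n => exact hσ n ρ' (by simpa using hn)
    exact rc_tbeta (SN.of_subst (σ := single con) ((rc_cand τ).1 _ key)) key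
  | app _ _ ihf iha => exact fun σ hσ => ihf σ hσ _ (iha σ hσ)
  | tapp _ ih => exact fun σ hσ => ih σ hσ
  | @node Γ a b ρ _ _ iha ihb =>
    intro σ hσ
    refine sn_node (iha σ hσ) (SN.of_subst (σ := single (var 0)) ?_)
    show SN ((b.subst (up σ)).inst (var 0))
    rw [subst_up_inst]
    refine ihb _ fun n ρ' hn => ?_
    cases n with
    | zero => exact rc_var ρ' 0
    | succ n => exact hσ n ρ' (by simpa using hn)

end Sk

/-- Shape-typed skeletons are strongly normalizing. -/
theorem shapeSN : ShapeSNSpec := fun _ K τ h => by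
  have := (Sk.rc_cand τ).1 _ (Sk.rc_fundamental h Sk.var fun n ρ _ => Sk.rc_var ρ n)
  rwa [Sk.subst_var] at this

end Vale.Agent.P340
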