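import Vale.Agent.P340.Untyped.Syntax

/-!
# P340: substitution, reduction and relevance of skeletons
-/

namespace Vale.Agent.P340

namespace Sk

open Relation

theorem upRen_comp (ξ ζ : ℕ → ℕ) : (fun n => upRen ξ (upRen ζ n)) = upRen fun n => ξ (ζ n) := by
  funext n; cases n <;> rfl

theorem rename_rename (K : Sk) :
    ∀ ξ ζ : ℕ → ℕ, (K.rename ζ).rename ξ = K.rename fun n => ξ (ζ n) := by
  induction K <;> intro ξ ζ <;> simp_all [rename, upRen_comp]

theorem subst_rename (K : Sk) :
    ∀ (σ : ℕ → Sk) (ζ : ℕ → ℕ), (K.rename ζ).subst σ = K.subst fun n => σ (ζ n) := by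
  have h : ∀ (σ : ℕ → Sk) (ζ : ℕ → ℕ),
      (fun n => up σ (upRen ζ n)) = up fun n => σ (ζ n) := fun σ ζ => by
    funext n; cases n <;> rfl
  induction K <;> intro σ ζ <;> simp_all [rename, subst]

theorem rename_subst (K : Sk) :
    ∀ (σ : ℕ → Sk) (ξ : ℕ → ℕ), (K.subst σ).rename ξ = K.subst fun n => (σ n).rename ξ := by
  have h : ∀ (σ : ℕ → Sk) (ξ : ℕ → ℕ),
      (fun n => (up σ n).rename (upRen ξ)) = up fun n => (σ n).rename ξ := fun σ ξ => by
    funext n
    cases n with
    | zero => rfl
    | succ n => simp only [up, lift, rename_rename]; rfl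
  induction K <;> intro σ ξ <;> simp_all [rename, subst]

theorem up_comp (σ τ : ℕ → Sk) :
    (fun n => (up τ n).subst (up σ)) = up fun n => (τ n).subst σ := by
  funext n
  cases n with
  | zero => rfl
  | succ n => simp only [up, lift, subst_rename, rename_subst]

theorem subst_subst (K : Sk) :
    ∀ σ τ : ℕ → Sk, (K.subst τ).subst σ = K.subst fun n => (τ n).subst σ := by
  induction K <;> intro σ τ <;> simp_all [subst, up_comp]

theorem up_var : up var = var := by
  funext n; cases n <;> rfl

theorem subst_var (K : Sk) : K.subst var = K := by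
  induction K <;> simp_all [subst, up_var]

theorem up_ren (ξ : ℕ → ℕ) : up (fun n => var (ξ n)) = fun n => var (upRen ξ n) := by
  funext n; cases n <;> rfl

theorem rename_eq_subst (K : Sk) : ∀ ξ : ℕ → ℕ, K.rename ξ = K.subst fun n => var (ξ n) := by
  induction K <;> intro ξ <;> simp_all [rename, subst, up_ren]

@[simp] theorem lift_inst (K N : Sk) : K.lift.inst N = K := by
  unfold lift inst
  rw [subst_rename]
  exact subst_var K

/-- Prepend a value to a substitution. -/
def cons (N : Sk) (σ : ℕ → Sk) : ℕ → Sk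
  | 0 => N
  | n + 1 => σ n

theorem subst_up_inst (K N : Sk) (σ : ℕ → Sk) :
    (K.subst (up σ)).inst N = K.subst (cons N σ) := by
  unfold inst
  rw [subst_subst]
  congr 1
  funext n
  cases n with
  | zero => rfl
  | succ n => exact lift_inst (σ n) N

theorem inst_subst (K N : Sk) (σ : ℕ → Sk) :
    (K.inst N).subst σ = (K.subst (up σ)).inst (N.subst σ) := by
  rw [subst_up_inst]
  unfold inst
  rw [subst_subst]
  congr 1
  funext n; cases n <;> rfl

theorem inst_rename (K N : Sk) (ξ : ℕ → ℕ) :
    (K.inst N).rename ξ = (K.rename (upRen ξ)).inst (N.rename ξ) := by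
  rw [rename_eq_subst, rename_eq_subst K, rename_eq_subst N, inst_subst, up_ren]

/-! ## Reduction under substitution -/

theorem Red.subst {K K' : Sk} (h : Red K K') :
    ∀ σ : ℕ → Sk, Red (K.subst σ) (K'.subst σ) := by
  induction h with
  | beta b a => intro σ; rw [inst_subst]; exact .beta _ _
  | tbeta b => intro σ; rw [inst_subst]; exact .tbeta _
  | lam _ ih => exact fun σ => .lam (ih _)
  | tlam _ ih => exact fun σ => .tlam (ih _)
  | appL a _ ih => exact fun σ => .appL _ (ih σ)
  | appR f _ ih => exact fun σ => .appR _ (ih σ)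
  | tapp _ ih => exact fun σ => .tapp (ih σ)
  | nodeL b _ ih => exact fun σ => .nodeL _ (ih σ)
  | nodeR a _ ih => exact fun σ => .nodeR _ (ih _)

theorem Red.rename {K K' : Sk} (h : Red K K') (ξ : ℕ → ℕ) :
    Red (K.rename ξ) (K'.rename ξ) := by
  rw [rename_eq_subst, rename_eq_subst]; exact h.subst _

/-- Many steps. -/
abbrev Reds : Sk → Sk → Prop := ReflTransGen Red

/-- At least one step. -/
abbrev RedP : Sk → Sk → Prop := TransGen Red

theorem Reds.app {f f' a a' : Sk} (hf : Reds f f') (ha : Reds a a') :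
    Reds (.app f a) (.app f' a') :=
  (hf.lift (fun x => Sk.app x a) fun _ _ h => Red.appL a h).trans
    (ha.lift (fun x => Sk.app f' x) fun _ _ h => Red.appR f' h)

theorem Reds.node {f f' a a' : Sk} (hf : Reds f f') (ha : Reds a a') :
    Reds (.node f a) (.node f' a') :=
  (hf.lift (fun x => Sk.node x a) fun _ _ h => Red.nodeL a h).trans
    (ha.lift (fun x => Sk.node f' x) fun _ _ h => Red.nodeR f' h)

theorem Reds.up {σ τ : ℕ → Sk} (h : ∀ n, Reds (σ n) (τ n)) :
    ∀ n, Reds (Sk.up σ n) (Sk.up τ n)
  | 0 => .refl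
  | n + 1 => (h n).lift (fun x => x.rename Nat.succ) fun _ _ r => r.rename _

theorem Reds.substR (K : Sk) :
    ∀ {σ τ : ℕ → Sk}, (∀ n, Reds (σ n) (τ n)) → Reds (K.subst σ) (K.subst τ) := by
  induction K with
  | var n => exact fun h => h n
  | con => exact fun _ => .refl
  | lam b ih =>
    exact fun h => (ih (Reds.up h)).lift Sk.lam fun _ _ r => Red.lam r
  | tlam b ih =>
    exact fun h => (ih (Reds.up h)).lift Sk.tlam fun _ _ r => Red.tlam r
  | app f a hf ha => exact fun h => Reds.app (hf h) (ha h)
  | tapp f ih => exact fun h => (ih h).lift Sk.tapp fun _ _ r => Red.tapp r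
  | node a b ha hb => exact fun h => Reds.node (ha h) (hb (Reds.up h))

/-- A step in a substituted variable that occurs gives at least one step. -/
theorem RedP.substR (K : Sk) :
    ∀ {σ τ : ℕ → Sk} (m : ℕ), Occurs m K → (∀ n, Reds (σ n) (τ n)) → RedP (σ m) (τ m) →
      RedP (K.subst σ) (K.subst τ) := by
  induction K with
  | var n =>
    intro σ τ m hm _ hp
    simp only [Occurs] at hm
    subst hm
    exact hp
  | con => intro σ τ m hm; exact hm.elim
  | lam b ih =>
    intro σ τ m hm h hp
    exact (ih (m + 1) hm (Reds.up h) (hp.lift (fun x => x.rename Nat.succ)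
      fun _ _ r => r.rename _)).lift Sk.lam fun _ _ r => Red.lam r
  | tlam b ih =>
    intro σ τ m hm h hp
    exact (ih (m + 1) hm (Reds.up h) (hp.lift (fun x => x.rename Nat.succ)
      fun _ _ r => r.rename _)).lift Sk.tlam fun _ _ r => Red.tlam r
  | app f a hf ha =>
    intro σ τ m hm h hp
    rcases hm with hm | hm
    · exact ((hf m hm h hp).lift (fun x => Sk.app x (a.subst σ))
        fun _ _ r => Red.appL _ r).trans_left
          (Reds.app .refl (Reds.substR a h))
    · exact TransGen.trans_right (Reds.app (Reds.substR f h) .refl)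
        ((ha m hm h hp).lift (fun x => Sk.app (f.subst τ) x) fun _ _ r => Red.appR _ r)
  | tapp f ih =>
    intro σ τ m hm h hp
    exact (ih m hm h hp).lift Sk.tapp fun _ _ r => Red.tapp r
  | node a b ha hb =>
    intro σ τ m hm h hp
    rcases hm with hm | hm
    · exact ((ha m hm h hp).lift (fun x => Sk.node x (b.subst (Sk.up σ)))
        fun _ _ r => Red.nodeL _ r).trans_left
          (Reds.node .refl (Reds.substR b (Reds.up h)))
    · exact TransGen.trans_right (Reds.node (Reds.substR a h) .refl)
        ((hb (m + 1) hm (Reds.up h) (hp.lift (fun x => x.rename Nat.succ)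
          fun _ _ r => r.rename _)).lift (fun x => Sk.node (a.subst τ) x)
            fun _ _ r => Red.nodeR _ r)

/-! ## Strong normalization -/

theorem SN.intro {K : Sk} (h : ∀ K', Red K K' → SN K') : SN K := Acc.intro K h

theorem SN.step {K K' : Sk} (h : SN K) (r : Red K K') : SN K' := h.inv r

theorem SN.steps {K K' : Sk} (h : SN K) (r : Reds K K') : SN K' := by
  induction r with
  | refl => exact h
  | tail _ r ih => exact ih.step r

theorem SN.of_map {f : Sk → Sk} (hf : ∀ x y, Red x y → Red (f x) (f y)) {K : Sk}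
    (h : SN (f K)) : SN K := by
  generalize hk : f K = L at h
  induction h generalizing K with
  | intro L _ ih => exact .intro fun K' r => ih (f K') (hk ▸ hf _ _ r) rfl

theorem SN.of_subst {K : Sk} {σ : ℕ → Sk} (h : SN (K.subst σ)) : SN K :=
  SN.of_map (f := fun x => x.subst σ) (fun _ _ r => r.subst σ) h

theorem sn_node {a : Sk} (ha : SN a) : ∀ {b : Sk}, SN b → SN (node a b) := by
  induction ha with
  | intro a _ iha =>
    intro b hb
    induction hb with
    | intro b hb ihb =>
      refine SN.intro fun K' r => ?_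
      cases r with
      | nodeL _ r => exact iha _ r (Acc.intro b hb)
      | nodeR _ r => exact ihb _ r

/-! ## Occurrence and relevance -/

theorem occurs_rename (K : Sk) :
    ∀ {n : ℕ} (ξ : ℕ → ℕ), Occurs n K → Occurs (ξ n) (K.rename ξ) := by
  induction K with
  | var m => intro n ξ h; exact congrArg ξ (show m = n from h)
  | con => intro n ξ h; exact h.elim
  | lam b ih => intro n ξ h; exact ih (upRen ξ) h
  | tlam b ih => intro n ξ h; exact ih (upRen ξ) h
  | app f a hf ha => intro n ξ h; exact h.imp (hf ξ) (ha ξ)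
  | tapp f ih => intro n ξ h; exact ih ξ h
  | node a b ha hb => intro n ξ h; exact h.imp (ha ξ) (hb (upRen ξ))

theorem occurs_subst (K : Sk) :
    ∀ {n m : ℕ} (σ : ℕ → Sk), Occurs n K → Occurs m (σ n) → Occurs m (K.subst σ) := by
  induction K with
  | var k => intro n m σ h hm; simp only [Occurs] at h; subst h; exact hm
  | con => intro n m σ h; exact h.elim
  | lam b ih => intro n m σ h hm; exact ih (up σ) h (occurs_rename _ _ hm)
  | tlam b ih => intro n m σ h hm; exact ih (up σ) h (occurs_rename _ _ hm)
  | app f a hf ha => intro n m σ h hm; exact h.imp (hf σ · hm) (ha σ · hm)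
  | tapp f ih => intro n m σ h hm; exact ih σ h hm
  | node a b ha hb =>
    intro n m σ h hm
    exact h.imp (ha σ · hm) (hb (up σ) · (occurs_rename _ _ hm))

theorem relevant_rename (K : Sk) :
    ∀ (ξ : ℕ → ℕ), K.Relevant → (K.rename ξ).Relevant := by
  induction K with
  | var m => exact fun _ _ => trivial
  | con => exact fun _ _ => trivial
  | lam b ih => exact fun ξ h => ⟨occurs_rename b (upRen ξ) h.1, ih _ h.2⟩
  | tlam b ih => exact fun ξ h => ih _ h
  | app f a hf ha => exact fun ξ h => ⟨hf ξ h.1, ha ξ h.2⟩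
  | tapp f ih => exact fun ξ h => ih ξ h
  | node a b ha hb => exact fun ξ h => ⟨ha ξ h.1, hb _ h.2⟩

theorem relevant_up {σ : ℕ → Sk} (h : ∀ n, (σ n).Relevant) : ∀ n, (up σ n).Relevant
  | 0 => trivial
  | n + 1 => relevant_rename _ _ (h n)

theorem relevant_subst (K : Sk) :
    ∀ {σ : ℕ → Sk}, K.Relevant → (∀ n, (σ n).Relevant) → (K.subst σ).Relevant := by
  induction K with
  | var m => exact fun _ h => h m
  | con => exact fun _ _ => trivial
  | lam b ih =>
    exact fun {σ} h hs => ⟨occurs_subst b (m := 0) (up σ) h.1 rfl, ih h.2 (relevant_up hs)⟩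
  | tlam b ih => exact fun h hs => ih h (relevant_up hs)
  | app f a hf ha => exact fun h hs => ⟨hf h.1 hs, ha h.2 hs⟩
  | tapp f ih => exact fun h hs => ih h hs
  | node a b ha hb => exact fun h hs => ⟨ha h.1 hs, hb h.2 (relevant_up hs)⟩

theorem relevant_inst {b a : Sk} (hb : b.Relevant) (ha : a.Relevant) : (b.inst a).Relevant :=
  relevant_subst b hb fun n => by cases n; exacts [ha, trivial]

/-- A step of a relevant skeleton keeps every occurring variable. -/
theorem Red.occurs {K K' : Sk} (h : Red K K') :
    K.Relevant → ∀ {n : ℕ}, Occurs n K → Occurs n K' := by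
  induction h with
  | beta b a =>
    intro hr n hn
    rcases hn with hn | hn
    · exact occurs_subst b (single a) (show Occurs (n + 1) b from hn) rfl
    · exact occurs_subst b (single a) hr.1.1 hn
  | tbeta b =>
    intro _ n hn
    exact occurs_subst b (single con) (show Occurs (n + 1) b from hn) rfl
  | lam _ ih => exact fun hr {n} hn => ih hr.2 (show Occurs (n + 1) _ from hn)
  | tlam _ ih => exact fun hr {n} hn => ih hr (show Occurs (n + 1) _ from hn)
  | appL a _ ih => exact fun hr {n} hn => hn.imp_left (ih hr.1)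
  | appR f _ ih => exact fun hr {n} hn => hn.imp_right (ih hr.2)
  | tapp _ ih => exact fun hr {n} hn => ih hr hn
  | nodeL b _ ih => exact fun hr {n} hn => hn.imp_left (ih hr.1)
  | nodeR a _ ih => exact fun hr {n} hn => hn.imp_right (ih hr.2)

theorem Red.relevant {K K' : Sk} (h : Red K K') : K.Relevant → K'.Relevant := by
  induction h with
  | beta b a => exact fun hr => relevant_inst hr.1.2 hr.2
  | tbeta b => exact fun hr => relevant_inst hr trivial
  | lam r ih => exact fun hr => ⟨r.occurs hr.2 hr.1, ih hr.2⟩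
  | tlam _ ih => exact fun hr => ih hr
  | appL a _ ih => exact fun hr => ⟨ih hr.1, hr.2⟩
  | appR f _ ih => exact fun hr => ⟨hr.1, ih hr.2⟩
  | tapp _ ih => exact fun hr => ih hr
  | nodeL b _ ih => exact fun hr => ⟨ih hr.1, hr.2⟩
  | nodeR a _ ih => exact fun hr => ⟨hr.1, ih hr.2⟩

theorem Reds.relevant {K K' : Sk} (h : Reds K K') (hr : K.Relevant) : K'.Relevant := by
  induction h with
  | refl => exact hr
  | tail _ r ih => exact r.relevant ih

end Sk

end Vale.Agent.P340
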