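import Mathlib

/-!
# P340: untyped skeletons, their reduction, relevance and shapes
-/

namespace Vale.Agent.P340

/-- Skeletons: term variables and binders, type abstraction/application, constants, and inert
binding nodes (the second component of `node` binds one variable). -/
inductive Sk where
  | var (n : ℕ)
  | con
  | lam (b : Sk)
  | tlam (b : Sk)
  | app (f a : Sk)
  | tapp (f : Sk)
  | node (a b : Sk)

namespace Sk

/-- Lift a renaming under a binder. -/
def upRen (ξ : ℕ → ℕ) : ℕ → ℕ
  | 0 => 0
  | n + 1 => ξ n + 1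

/-- Renaming. -/
def rename (ξ : ℕ → ℕ) : Sk → Sk
  | var n => var (ξ n)
  | con => con
  | lam b => lam (b.rename (upRen ξ))
  | tlam b => tlam (b.rename (upRen ξ))
  | app f a => app (f.rename ξ) (a.rename ξ)
  | tapp f => tapp (f.rename ξ)
  | node a b => node (a.rename ξ) (b.rename (upRen ξ))

/-- Shift by one. -/
def lift (K : Sk) : Sk := K.rename Nat.succ

/-- Lift a substitution under a binder. -/
def up (σ : ℕ → Sk) : ℕ → Sk
  | 0 => var 0
  | n + 1 => (σ n).lift

/-- Simultaneous substitution. -/
def subst (σ : ℕ → Sk) : Sk → Sk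
  | var n => σ n
  | con => con
  | lam b => lam (b.subst (up σ))
  | tlam b => tlam (b.subst (up σ))
  | app f a => app (f.subst σ) (a.subst σ)
  | tapp f => tapp (f.subst σ)
  | node a b => node (a.subst σ) (b.subst (up σ))

/-- The substitution replacing variable `0`. -/
def single (N : Sk) : ℕ → Sk
  | 0 => N
  | n + 1 => var n

/-- Instantiate variable `0`. -/
def inst (K N : Sk) : Sk := K.subst (single N)

/-- One reduction step of skeletons, in any position. -/
inductive Red : Sk → Sk → Prop where
  | beta (b a : Sk) : Red (app (lam b) a) (b.inst a)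
  | tbeta (b : Sk) : Red (tapp (tlam b)) (b.inst con)
  | lam {b b' : Sk} : Red b b' → Red (lam b) (lam b')
  | tlam {b b' : Sk} : Red b b' → Red (tlam b) (tlam b')
  | appL {f f' : Sk} (a : Sk) : Red f f' → Red (app f a) (app f' a)
  | appR (f : Sk) {a a' : Sk} : Red a a' → Red (app f a) (app f a')
  | tapp {f f' : Sk} : Red f f' → Red (tapp f) (tapp f')
  | nodeL {a a' : Sk} (b : Sk) : Red a a' → Red (node a b) (node a' b)
  | nodeR (a : Sk) {b b' : Sk} : Red b b' → Red (node a b) (node a b')

/-- No step is possible. -/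
def Normal (K : Sk) : Prop := ∀ K', ¬ Red K K'

/-- Strongly normalizing. -/
def SN : Sk → Prop := Acc fun x y => Red y x

/-- Variable `n` occurs free. -/
def Occurs : ℕ → Sk → Prop
  | n, var m => m = n
  | _, con => False
  | n, lam b => Occurs (n + 1) b
  | n, tlam b => Occurs (n + 1) b
  | n, app f a => Occurs n f ∨ Occurs n a
  | n, tapp f => Occurs n f
  | n, node a b => Occurs n a ∨ Occurs (n + 1) b

/-- Every `lam` binds a variable that occurs in its body. -/
def Relevant : Sk → Prop
  | var _ => True
  | con => True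
  | lam b => Occurs 0 b ∧ Relevant b
  | tlam b => Relevant b
  | app f a => Relevant f ∧ Relevant a
  | tapp f => Relevant f
  | node a b => Relevant a ∧ Relevant b

end Sk

/-- Simple shapes of types: atom, arrow, quantifier. -/
inductive Shape where
  | atom
  | arr (σ τ : Shape)
  | all (τ : Shape)

/-- Simple typing of skeletons. -/
inductive ShapeTyped : List Shape → Sk → Shape → Prop where
  | var {Γ : List Shape} {n : ℕ} {σ : Shape} : Γ[n]? = some σ → ShapeTyped Γ (.var n) σ
  | con {Γ : List Shape} : ShapeTyped Γ .con .atom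
  | lam {Γ : List Shape} {b : Sk} {σ τ : Shape} :
      ShapeTyped (σ :: Γ) b τ → ShapeTyped Γ (.lam b) (.arr σ τ)
  | tlam {Γ : List Shape} {b : Sk} {τ : Shape} :
      ShapeTyped (.atom :: Γ) b τ → ShapeTyped Γ (.tlam b) (.all τ)
  | app {Γ : List Shape} {f a : Sk} {σ τ : Shape} :
      ShapeTyped Γ f (.arr σ τ) → ShapeTyped Γ a σ → ShapeTyped Γ (.app f a) τ
  | tapp {Γ : List Shape} {f : Sk} {τ : Shape} :
      ShapeTyped Γ f (.all τ) → ShapeTyped Γ (.tapp f) τ
  | node {Γ : List Shape} {a b : Sk} {σ : Shape} :
      ShapeTyped Γ a .atom → ShapeTyped (σ :: Γ) b .atom → ShapeTyped Γ (.node a b) .atom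

/-- Conservation: a relevant skeleton with a normal form is strongly normalizing. -/
def ConservationSpec : Prop :=
  ∀ K N : Sk, K.Relevant → Relation.ReflTransGen Sk.Red K N → N.Normal → K.SN

/-- Shape-typed skeletons are strongly normalizing. -/
def ShapeSNSpec : Prop :=
  ∀ (Γ : List Shape) (K : Sk) (σ : Shape), ShapeTyped Γ K σ → K.SN

end Vale.Agent.P340
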